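import Mathlib

open MeasureTheory
open scoped ENNReal NNReal

namespace Vale.Agent.P304

variable {X : Type} [MetricSpace X] {k : ℕ}

/-- Total movement of `k` labelled servers standing at `p` when the requests occurring in the list
are served in order; every entry `(i, r)` means that request `r` is served by moving server `i`
to `r`, all other servers stay where they are. -/
noncomputable def moveCost : (Fin k → X) → List (Fin k × X) → ℝ
  | _, [] => 0
  | p, (i, r) :: l => dist (p i) r + moveCost (Function.update p i r) l

/-- Cost of the service of the request sequence `σ` from the positions `s` in which the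
`t`-th request is served by server `f t`. -/
noncomputable def serviceCost (s : Fin k → X) (σ : List X) (f : Fin σ.length → Fin k) : ℝ :=
  moveCost s (List.ofFn fun t => (f t, σ.get t))

/-- The offline optimum: the least cost of a service of `σ` from `s`. -/
noncomputable def opt (s : Fin k → X) (σ : List X) : ℝ :=
  ⨅ f : Fin σ.length → Fin k, serviceCost s σ f

/-- Cost on `σ` of the deterministic online policy `a` started at `s`; the server that serves the
`t`-th request is `a [r₁, …, r_t]`. -/
noncomputable def policyCost (s : Fin k → X) (a : List X → Fin k) (σ : List X) : ℝ :=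
  serviceCost s σ fun t => a (σ.take (t + 1))

/-- There is a randomized policy (a random deterministic policy, on some probability space)
whose expected cost on every request sequence `σ` is at most `c * opt + B`, where `B` does not
depend on `σ`. -/
def IsCompetitive (s : Fin k → X) (c : ℝ) : Prop :=
  ∃ (Ω : Type) (_ : MeasurableSpace Ω) (P : Measure Ω) (A : Ω → List X → Fin k),
    IsProbabilityMeasure P ∧ (∀ h, Measurable fun ω => A ω h) ∧
      ∃ B : ℝ, ∀ σ : List X, ∫ ω, policyCost s (A ω) σ ∂P ≤ c * opt s σ + B

/-- The randomized competitive ratio `ρ(X, d, s)`. -/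
noncomputable def ratio (s : Fin k → X) : ℝ≥0∞ :=
  ⨅ (c : ℝ≥0) (_ : IsCompetitive s c), (c : ℝ≥0∞)

/-- `R(k)`: supremum of `ρ(X, d, s)` over all metric spaces with at least `k + 1` points and all
initial positions. -/
noncomputable def R (k : ℕ) : ℝ≥0∞ :=
  ⨆ (X : Type) (_ : MetricSpace X) (_ : ((k + 1 : ℕ) : ℕ∞) ≤ ENat.card X) (s : Fin k → X), ratio s

/-- The same supremum over finite metric spaces only. -/
noncomputable def Rfin (k : ℕ) : ℝ≥0∞ :=
  ⨆ (X : Type) (_ : MetricSpace X) (_ : Finite X) (_ : ((k + 1 : ℕ) : ℕ∞) ≤ ENat.card X)
    (s : Fin k → X), ratio s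

/-- The same supremum over finite ultrametric spaces only. -/
noncomputable def Rult (k : ℕ) : ℝ≥0∞ :=
  ⨆ (X : Type) (_ : MetricSpace X) (_ : IsUltrametricDist X) (_ : Finite X)
    (_ : ((k + 1 : ℕ) : ℕ∞) ≤ ENat.card X) (s : Fin k → X), ratio s

end Vale.Agent.P304
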